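import Vale.Agent.P352.BW.H209.P

/-!
# P352 BW (helper209): the law of the null deformations and the translations, abstract form
-/

set_option linter.all false

noncomputable section

open MeasureTheory Filter Topology
open scoped ComplexConjugate InnerProductSpace BoundedContinuousFunction

namespace Vale.Agent.P352.BW.H209

open Vale.Agent.P132 (ModData expB jconj reflB)
open Vale.Agent.P352.BW Vale.Agent.P352.BW.H732G

variable {H : Type*} [NormedAddCommGroup H] [InnerProductSpace ℂ H] [CompleteSpace H]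
variable {M : VonNeumannAlgebra H} {ξ : H}

/-- limits of isometries at convergent vectors -/
lemma iso_lim {f : ℝ → H → H} (hf : ∀ t x y, ‖f t x - f t y‖ = ‖x - y‖) {F : H → H}
    {l : Filter ℝ} (hF : ∀ y, Tendsto (fun t => f t y) l (𝓝 (F y))) {g : ℝ → H} {y : H}
    (hg : Tendsto g l (𝓝 y)) : Tendsto (fun t => f t (g t)) l (𝓝 (F y)) := by
  have h1 : Tendsto (fun t => f t (g t) - f t y) l (𝓝 0) := by
    rw [tendsto_zero_iff_norm_tendsto_zero]
    simp only [hf]
    have := (hg.sub_const y).norm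
    simpa using this
  have h2 := h1.add (hF y)
  simpa using h2

/-- the parameter `e^{2πs} = 1 + x` -/
def sp (x : ℝ) : ℝ := Real.log (1 + x) / (2 * Real.pi)

lemma exp_sp {x : ℝ} (hx : 0 < 1 + x) : Real.exp (2 * Real.pi * sp x) = 1 + x := by
  rw [sp, mul_div_cancel₀ _ (by positivity), Real.exp_log hx]

lemma exp_neg_sp {x : ℝ} (hx : 0 < 1 + x) : Real.exp (-(2 * Real.pi * sp x)) = (1 + x)⁻¹ := by
  rw [Real.exp_neg, exp_sp hx]

lemma sp_zero : sp 0 = 0 := by simp [sp]

/-- **the law**, abstract form -/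
theorem law (E : ModData M ξ) (Nt : ℝ → VonNeumannAlgebra H)
    (Et : ∀ t : ℝ, 0 < t → ModData (Nt t) ξ)
    (hle : ∀ t : ℝ, 0 < t → ∀ x ∈ Nt t, x ∈ M)
    (hmod : ∀ t : ℝ, 0 < t → ∀ s : ℝ, ∀ x ∈ Nt t, E.sg s x ∈ Nt (Real.exp (-(2 * Real.pi * s)) * t))
    (hmono : ∀ t t' : ℝ, 0 < t → t ≤ t' → ∀ x ∈ Nt t, x ∈ Nt t')
    (Tr La : ℝ → H → H) (Sa : ℝ → H → H)
    (hT : ∀ t x y, ‖Tr t x - Tr t y‖ = ‖x - y‖)
    (hTc : ∀ z, Tendsto (fun t => Tr t z) (𝓝 0) (𝓝 z))
    (hL : ∀ t x y, ‖La t x - La t y‖ = ‖x - y‖)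
    (hLc : ∀ z, Tendsto (fun t => La t z) (𝓝 0) (𝓝 z))
    (hS : ∀ t x y, ‖Sa t x - Sa t y‖ = ‖x - y‖) (hSc : ∀ z, Continuous fun t => Sa t z)
    (key : ∀ (t : ℝ) (ht : 0 < t) (s : ℝ) (z : H), (Et t ht).U s z =
      Tr t (Sa ((1 - Real.exp (-(2 * Real.pi * s))) / (2 * t)) (La s (Tr (-t) z))))
    (r t : ℝ) (ht : 0 < t) (hr : 0 < 1 + r * t) (z : H) :
    Sa (r / 2) (E.U (sp (r * t)) z) =
      Tr t (Sa (r / (2 * (1 + r * t))) (La (sp (r * t)) (Tr (-t) z))) := by
  have hp : ∀ t (ht : 0 < t), ∃ S, Hp E (Et t ht) S := fun t ht =>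
    hp_of E (Et t ht) (hle t ht) fun s hs x hx => by
      refine hmono _ _ (by positivity) ?_ _ (hmod t ht s x hx)
      have h1 : Real.exp (-(2 * Real.pi * s)) ≤ 1 := by
        rw [Real.exp_le_one_iff]
        have := Real.pi_pos
        have : 0 ≤ 2 * Real.pi * s := by positivity
        linarith
      nlinarith
  choose! S hSp using hp
  -- scaling
  have hsc : ∀ (t : ℝ) (ht : 0 < t) (c : ℝ), -1 < c → S t c = S 1 (c / t) := by
    intro t ht c hc
    set s : ℝ := -(Real.log t) / (2 * Real.pi) with hs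
    have e1 : Real.exp (-(2 * Real.pi * s)) = t := by
      rw [hs, show -(2 * Real.pi * (-(Real.log t) / (2 * Real.pi))) = Real.log t by field_simp,
        Real.exp_log ht]
    have e2 : Real.exp (2 * Real.pi * s) = t⁻¹ := by
      rw [← e1, ← Real.exp_neg, neg_neg]
    have e3 : Real.exp (-(2 * Real.pi * s)) * 1 = t := by rw [e1, mul_one]
    have hm1 : ∀ X ∈ Nt 1, E.sg s X ∈ Nt t := fun X hX => by
      have := hmod 1 one_pos s X hX
      rwa [e3] at this
    have hm2 : ∀ Y ∈ Nt t, E.sg (-s) Y ∈ Nt 1 := fun Y hY => by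
      have := hmod t ht (-s) Y hY
      rw [show -(2 * Real.pi * -s) = 2 * Real.pi * s by ring, e2, inv_mul_cancel₀ ht.ne'] at this
      exact this
    have nat : ∀ u z, E.U s ((Et 1 one_pos).U u z) = (Et t ht).U u (E.U s z) := fun u z => by
      refine eblock _ _ _ (Et 1 one_pos) (Et t ht) (Wt E s) (E.U_xi s) (fun X hX => ?_)
        (fun Y hY => ?_) u z
      · refine ⟨E.sg s X, hm1 X hX, fun z => ?_⟩
        rw [Wt_apply, Wt_apply, E.sg_U_apply]
      · refine ⟨E.sg (-s) Y, hm2 Y hY, fun z => ?_⟩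
        rw [Wt_apply, Wt_apply, ModData.sg_apply, neg_neg, E.U_apply_neg]
    set u : ℝ := sp c with hu
    have e4 : Real.exp (2 * Real.pi * u) - 1 = c := by
      rw [hu, exp_sp (by linarith)]
      ring
    ext z
    have h1 := nat u (E.U (-s) (E.U (-u) z))
    rw [(hSp 1 one_pos).mod, (hSp t ht).mod, e4] at h1
    have h2 : E.U s ((S 1 c * E.U u) (E.U (-s) (E.U (-u) z))) = S 1 (c / t) z := by
      show E.U s (S 1 c (E.U u (E.U (-s) (E.U (-u) z)))) = _
      have h3 : E.U s (S 1 c (E.U u (E.U (-s) (E.U (-u) z)))) =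
          (E.U s * S 1 c) (E.U u (E.U (-s) (E.U (-u) z))) := rfl
      rw [h3, (hSp 1 one_pos).cov]
      show S 1 (Real.exp (2 * Real.pi * s) * c) (E.U s (E.U u (E.U (-s) (E.U (-u) z)))) = _
      rw [e2, ← E.U_add_apply, ← E.U_add_apply, ← E.U_add_apply,
        show s + u + -s + -u = 0 by ring, inv_mul_eq_div]
      simp
    have h4 : (S t c * E.U u) (E.U s (E.U (-s) (E.U (-u) z))) = S t c z := by
      show S t c (E.U u (E.U s (E.U (-s) (E.U (-u) z)))) = _
      rw [← E.U_add_apply, ← E.U_add_apply, ← E.U_add_apply,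
        show u + s + -s + -u = 0 by ring]
      simp
    rw [h2, h4] at h1
    exact h1.symm
  -- the identity with `S 1`
  have main : ∀ t (ht : 0 < t), 0 < 1 + r * t → ∀ z, S 1 r (E.U (sp (r * t)) z) =
      Tr t (Sa (r / (2 * (1 + r * t))) (La (sp (r * t)) (Tr (-t) z))) := by
    intro t ht hr z
    have h1 := key t ht (sp (r * t)) z
    rw [(hSp t ht).mod, exp_sp hr, exp_neg_sp hr, add_sub_cancel_left, hsc t ht _ (by linarith),
      mul_div_cancel_right₀ _ ht.ne'] at h1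
    have h2 : (1 - (1 + r * t)⁻¹) / (2 * t) = r / (2 * (1 + r * t)) := by
      field_simp
      ring
    rw [h2] at h1
    exact h1
  -- the limit
  have lim : ∀ z, S 1 r z = Sa (r / 2) z := by
    intro z
    have hc0 : Tendsto (fun t : ℝ => r * t) (𝓝[>] 0) (𝓝 0) := by
      have : Tendsto (fun t : ℝ => r * t) (𝓝 0) (𝓝 (r * 0)) :=
        (continuous_const.mul continuous_id).tendsto 0
      rw [mul_zero] at this
      exact this.mono_left nhdsWithin_le_nhds
    have hsp : Tendsto (fun t : ℝ => sp (r * t)) (𝓝[>] 0) (𝓝 0) := by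
      have h1 : Tendsto (fun t : ℝ => Real.log (1 + r * t)) (𝓝[>] 0) (𝓝 (Real.log (1 + 0))) :=
        ((Real.continuousAt_log (by norm_num)).tendsto).comp (hc0.const_add 1)
      have h2 := h1.div_const (2 * Real.pi)
      simpa [sp] using h2
    have hid : Tendsto (fun t : ℝ => t) (𝓝[>] (0 : ℝ)) (𝓝 0) :=
      tendsto_id.mono_left nhdsWithin_le_nhds
    have hneg : Tendsto (fun t : ℝ => -t) (𝓝[>] (0 : ℝ)) (𝓝 0) := by
      have := hid.neg
      rwa [neg_zero] at this
    have l1 : Tendsto (fun t : ℝ => S 1 r (E.U (sp (r * t)) z)) (𝓝[>] 0) (𝓝 (S 1 r z)) := by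
      have h1 := ((E.continuous_U z).tendsto 0).comp hsp
      have h0 : E.U 0 z = z := by rw [E.U_zero]; rfl
      rw [h0] at h1
      exact ((S 1 r).continuous.tendsto _).comp h1
    have a1 : Tendsto (fun t : ℝ => Tr (-t) z) (𝓝[>] 0) (𝓝 z) := (hTc z).comp hneg
    have a2 : Tendsto (fun t : ℝ => La (sp (r * t)) (Tr (-t) z)) (𝓝[>] 0) (𝓝 z) := by
      refine iso_lim (f := fun t y => La (sp (r * t)) y) (F := fun y => y)
        (fun t x y => hL _ x y) (fun y => (hLc y).comp hsp) a1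
    have hx : Tendsto (fun t : ℝ => r / (2 * (1 + r * t))) (𝓝[>] 0) (𝓝 (r / 2)) := by
      have h1 : Tendsto (fun t : ℝ => 2 * (1 + r * t)) (𝓝[>] 0) (𝓝 (2 * (1 + 0))) :=
        (hc0.const_add 1).const_mul 2
      have h2 := (tendsto_const_nhds (x := r) (f := 𝓝[>] (0 : ℝ))).div h1 (by norm_num)
      rw [add_zero, mul_one] at h2
      exact h2
    have a3 : Tendsto (fun t : ℝ => Sa (r / (2 * (1 + r * t)))
        (La (sp (r * t)) (Tr (-t) z))) (𝓝[>] 0) (𝓝 (Sa (r / 2) z)) :=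
      iso_lim (f := fun t y => Sa (r / (2 * (1 + r * t))) y) (F := fun y => Sa (r / 2) y)
        (fun t x y => hS _ x y) (fun y => ((hSc y).tendsto _).comp hx) a2
    have a4 : Tendsto (fun t : ℝ => Tr t (Sa (r / (2 * (1 + r * t)))
        (La (sp (r * t)) (Tr (-t) z)))) (𝓝[>] 0) (𝓝 (Sa (r / 2) z)) := by
      refine iso_lim (f := fun t y => Tr t y) (F := fun y => y)
        (fun t x y => hT _ x y) (fun y => (hTc y).comp hid) a3
    refine tendsto_nhds_unique l1 (a4.congr' ?_)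
    have hev : ∀ᶠ t in 𝓝[>] (0 : ℝ), 0 < 1 + r * t := by
      have h1 : Tendsto (fun t : ℝ => 1 + r * t) (𝓝[>] 0) (𝓝 (1 + 0)) := hc0.const_add 1
      exact h1.eventually (lt_mem_nhds (by norm_num))
    filter_upwards [hev, self_mem_nhdsWithin] with t h1 h2
    exact (main t h2 h1 z).symm
  rw [← lim, main t ht hr]

end Vale.Agent.P352.BW.H209

end
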