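import Vale.Agent.P352.BW.H209.Lc
import Vale.Agent.P352.BW.H26.Lcc

/-!
# P352 BW (helper209): the law of the null deformations and the translations
-/

set_option linter.all false

noncomputable section

open MeasureTheory Filter Topology

namespace Vale.Agent.P352.BW.H209

open UniformSpace (Completion)
open GF H246 H496 H755 H15
open Vale.Agent.P352.BW

variable {D : Type*} [NormedAddCommGroup D] [InnerProductSpace ℂ D]
variable {Q : Theory D} {A : (V → V) → D → D} {𝒜 : Set V → VonNeumannAlgebra (Completion D)}
  {S : V → ℝ → Completion D →L[ℂ] Completion D}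

/-- **The law of the null deformations and the translations**: if the dilations are the modular
unitaries of the algebra of the forward light cone, then a special conformal transformation
followed by a translation is a similitude followed by a special conformal transformation. -/
theorem law_all (N : LNm Q A 𝒜) (hG : TfGen Q) (h : Grp0 Q 𝒜 S) {J : Completion D → Completion D}
    (hJ : IsMod (𝒜 Fc) (om Q) (fun t z => Ue Q (Real.exp (-(2 * Real.pi * t))) GF.one 0 z) J)
    {a b : V} (ha : IsNull a) (hb : IsNull b) (hab : GF.mdot a b = 1) (t c : ℝ) (L : Ix → V)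
    (z : Completion D) (hp : 0 < 1 + 2 * c * t)
    (hL : ∀ x, sim 1 L 0 x = x + (((1 + 2 * c * t)⁻¹ - 1) * GF.mdot b x) • a +
      (2 * c * t * GF.mdot a x) • b) :
    Ue Q 1 GF.one (-(t • b)) (S a c z) =
      S a (c / (1 + 2 * c * t)) (Ue Q (1 + 2 * c * t) L (-(t * (1 + 2 * c * t)) • b) z) :=
  H26L.law_of (ublock N.toRep) N.toRep h ha hb hab (fun r z => S a (r / 2) z)
    (fun r t L z ht hr hL hLx => law_pos N hG h hJ ha hb hab r t L z ht hr hL hLx) t c L z hp hL

end Vale.Agent.P352.BW.H209

end
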