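import Vale.Agent.P352.BW.H209.Hb
import Vale.Agent.P352.BW.H649.Lc

/-!
# P352 BW (helper209): the light cone, Bisognano-Wichmann for the light cone implies the law of
the null deformations and the translations
-/

set_option linter.all false

noncomputable section

open MeasureTheory Filter Topology
open scoped ComplexConjugate InnerProductSpace BoundedContinuousFunction

namespace Vale.Agent.P352.BW.H209

open Vale.Agent.P132 (ModData expB jconj reflB exists_modData)
open UniformSpace (Completion)
open GF H246 H496 H755 H15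
open Vale.Agent.P352.BW

section abs

variable {H : Type*} [NormedAddCommGroup H] [InnerProductSpace ℂ H] [CompleteSpace H]
variable {M : VonNeumannAlgebra H} {ξ : H} {U : ℝ → H → H} {J : H → H}

lemma V_zero_vec (h : IsMod M ξ U J) (t : ℝ) : U t 0 = 0 := by
  have h1 : inner ℂ (U t 0) (U t 0) = (0 : ℂ) := by rw [h.inn, inner_zero_left]
  exact inner_self_eq_zero.1 h1

/-- the vector is separating if the algebra has modular unitaries -/
lemma sep_of_isMod (h : IsMod M ξ U J) (hc : Dense {z | ∃ X ∈ M, X ξ = z}) :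
    ∀ X ∈ M, X ξ = 0 → X = 0 := by
  have key : ∀ X ∈ M, X ξ = 0 → star X ξ = 0 := by
    intro X hX h0
    have hj : J (star X ξ) = 0 := by
      refine ext_inner_left ℂ fun y => ?_
      rw [inner_zero_right]
      obtain ⟨F, h1, ⟨C, hC⟩, h3⟩ := h.kms X hX y
      have hF : ∀ t : ℝ, F t = 0 := fun t => by
        rw [(h3 t).1, h0, V_zero_vec h, inner_zero_right]
      have h4 := (h3 0).2
      rw [H234U.V_zero h] at h4
      rw [← h4]
      refine H234U.uniq0 (F := F) ⟨h1, C, fun z hz => hC z hz.1 hz.2⟩ hF ?_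
      exact H234U.low_mem 0
    have h5 : ‖star X ξ‖ = 0 := by rw [← H234U.J_norm h, hj, norm_zero]
    exact norm_eq_zero.1 h5
  intro X hX h0
  have h1 : ∀ z, star X z = 0 := by
    have hcl : IsClosed {z : H | star X z = 0} :=
      isClosed_eq (star X).continuous continuous_const
    intro z
    have : {z : H | star X z = 0} = Set.univ := by
      rw [← Set.univ_subset_iff, ← hc.closure_eq]
      refine hcl.closure_subset_iff.2 ?_
      rintro _ ⟨Z, hZ, rfl⟩
      have h2 := key (star Z * X) (mul_mem (star_mem hZ) hX) (by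
        show star Z (X ξ) = 0
        rw [h0, map_zero])
      rw [star_mul, star_star] at h2
      exact h2
    have hz : z ∈ {z : H | star X z = 0} := by rw [this]; trivial
    exact hz
  have h2 : star X = 0 := by
    ext z
    exact h1 z
  rw [← star_star X, h2, star_zero]

end abs

variable {D : Type*} [NormedAddCommGroup D] [InnerProductSpace ℂ D]
variable {Q : Theory D} {A : (V → V) → D → D} {𝒜 : Set V → VonNeumannAlgebra (Completion D)}
  {S : V → ℝ → Completion D →L[ℂ] Completion D}

lemma ue_norm (hU : UStmt Q A) {s : ℝ} {L : Ix → V} {y : V} (hs : 0 < s) (hL : IsLor L)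
    (x z : Completion D) : ‖Ue Q s L y x - Ue Q s L y z‖ = ‖x - z‖ := by
  obtain ⟨W, hW⟩ := hU.lin s L y hs hL
  rw [← hW, ← hW, ← map_sub, W.norm_map]

/-- the translations are strongly continuous -/
lemma tr_cont (R : Rep Q A) (b : V) (z : Completion D) :
    Tendsto (fun t : ℝ => Ue Q 1 GF.one (t • b) z) (𝓝 0) (𝓝 z) := by
  have hU : UStmt Q A := ublock R
  have hD : ∀ v : D, Tendsto (fun t : ℝ => Ue Q 1 GF.one (t • b) (v : Completion D)) (𝓝 0)
      (𝓝 (v : Completion D)) := by
    intro v
    have h1 := (R.der (fun _ => 1) (fun _ => GF.one) (fun t => t • b) (fun _ => b) v rfl rfl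
      (zero_smul _ _) (fun _ => ⟨one_pos, isLor_one⟩) (fun n x => ?_)).continuousAt.tendsto
    · have h2 : Q.U 1 GF.one ((0 : ℝ) • b) v = v := by
        rw [zero_smul]
        have h3 := R.mul 1 GF.one 0 1 GF.one 0 v one_pos one_pos isLor_one isLor_one
        have h4 := hU.lin 1 GF.one 0 one_pos isLor_one
        obtain ⟨W, hW⟩ := h4
        have e : (fun m => sim 1 GF.one 0 (GF.one m)) = GF.one := by
          funext m
          rw [HM.sim_tr, add_zero]
        rw [e, one_mul, HM.sim_tr, add_zero] at h3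
        have h5 : W (W (v : Completion D)) = W (v : Completion D) := by
          rw [hW, hW, hU.coe 1 GF.one 0 v one_pos isLor_one,
            hU.coe 1 GF.one 0 _ one_pos isLor_one, h3]
        have h6 := W.injective h5
        rw [hW, hU.coe 1 GF.one 0 v one_pos isLor_one] at h6
        exact Completion.coe_injective D h6
      rw [h2] at h1
      have h7 := ((Completion.continuous_coe D).tendsto v).comp h1
      refine h7.congr fun t => ?_
      exact (hU.coe 1 GF.one (t • b) v one_pos isLor_one).symm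
    · have e : (fun t : ℝ => sim 1 GF.one (t • b) x n) = fun t : ℝ => x n + t * b n := by
        funext t
        rw [HM.sim_tr]
        rfl
      rw [e]
      have := ((hasDerivAt_id (0 : ℝ)).mul_const (b n)).const_add (x n)
      simpa using this
  rw [Metric.tendsto_nhds]
  intro ε hε
  obtain ⟨v, hv⟩ : ∃ v : D, dist z (v : Completion D) < ε / 3 := by
    have := (Completion.denseRange_coe (α := D)).exists_dist_lt z (ε := ε / 3) (by positivity)
    exact this
  filter_upwards [(Metric.tendsto_nhds.1 (hD v)) (ε / 3) (by positivity)] with t ht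
  have h1 : dist (Ue Q 1 GF.one (t • b) z) (Ue Q 1 GF.one (t • b) (v : Completion D)) < ε / 3 := by
    rw [dist_eq_norm, ue_norm hU one_pos isLor_one, ← dist_eq_norm]
    exact hv
  calc dist (Ue Q 1 GF.one (t • b) z) z
      ≤ dist (Ue Q 1 GF.one (t • b) z) (Ue Q 1 GF.one (t • b) (v : Completion D)) +
        dist (Ue Q 1 GF.one (t • b) (v : Completion D)) (v : Completion D) +
        dist (v : Completion D) z := dist_triangle4 _ _ _ _
    _ < ε / 3 + ε / 3 + ε / 3 := by
        have : dist (v : Completion D) z < ε / 3 := by rw [dist_comm]; exact hv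
        linarith
    _ = ε := by ring

/-- modular data of the algebra of the light cone -/
theorem modF (N : LNm Q A 𝒜) {J : Completion D → Completion D}
    (hJ : IsMod (𝒜 Fc) (om Q) (fun t z => Ue Q (Real.exp (-(2 * Real.pi * t))) GF.one 0 z) J) :
    Nonempty (ModData (𝒜 Fc) (om Q)) := by
  have hne : Fc.Nonempty := by
    refine ⟨![1, 0, 0, 0], ?_, ?_⟩
    · rw [Reg1.md]
      simp
    · show (0 : ℝ) < (![1, 0, 0, 0] : V) 0
      simp
  have hc := N.cyc Lc.isOpen_fc hne
  exact exists_modData _ _ (H732G.norm_om Q) hc (sep_of_isMod hJ hc)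

/-- **The law of the null deformations and the translations**, `t > 0` -/
theorem law_pos (N : LNm Q A 𝒜) (hG : TfGen Q) (h : Grp0 Q 𝒜 S) {J : Completion D → Completion D}
    (hJ : IsMod (𝒜 Fc) (om Q) (fun t z => Ue Q (Real.exp (-(2 * Real.pi * t))) GF.one 0 z) J)
    {a b : V} (ha : IsNull a) (hb : IsNull b) (hab : GF.mdot a b = 1) (r t : ℝ) (L : Ix → V)
    (z : Completion D) (ht : 0 < t) (hr : 0 < 1 + r * t) (hL : IsLor L)
    (hLx : ∀ x, sim 1 L 0 x = x + (((1 + r * t)⁻¹ - 1) * GF.mdot b x) • a +
      (r * t * GF.mdot a x) • b) :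
    S a (r / 2) z = Ue Q 1 GF.one (t • b) (S a (r / (2 * (1 + r * t)))
      (Ue Q 1 L 0 (Ue Q 1 GF.one (-(t • b)) (Ue Q (1 + r * t) GF.one 0 z)))) := by
  have hU : UStmt Q A := ublock N.toRep
  obtain ⟨E⟩ := modF N hJ
  obtain ⟨EW⟩ := N.modW ha hb hab
  have hE : ∀ s z, Ue Q (Real.exp (-(2 * Real.pi * s))) GF.one 0 z = E.U s z :=
    fun s z => isMod_unique E hJ s z
  have hW : ∀ s z, EW.U s z = Ue Q 1 (T.bq a b s) 0 z := fun s z =>
    N.bw hG a b s (T.bq a b s) EW z ha hb hab (T.H732W.isLor_bq ha hb hab s)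
      (fun x => T.H732W.sim_bq a b s x)
  have key := law E (fun t => 𝒜 (Ct a t)) (fun t ht => Classical.choice (N.modC ha hb hab ht))
    (fun t _ x hx => N.ct_fc a t x hx)
    (fun t ht s X hX => ?_)
    (fun t t' _ htt x hx => N.mono _ _ (Lc.ct_mono a htt) x hx)
    (fun t z => Ue Q 1 GF.one (t • b) z) (fun s z => EW.U s z) (fun c z => S a c z)
    (fun t x y => ue_norm hU one_pos isLor_one x y) (fun z => tr_cont N.toRep b z)
    (fun s x y => by rw [← map_sub, EW.norm_U])
    (fun z => by
      have := (EW.continuous_U z).tendsto 0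
      rwa [EW.U_zero] at this)
    (fun c x y => by
      rw [← map_sub, @norm_eq_sqrt_re_inner ℂ, @norm_eq_sqrt_re_inner ℂ _ _ _ _ (x - y),
        h.inn a c _ _ ha])
    (fun z => h.cont a z ha)
    (fun t ht s z => ?_) r t ht hr (E.U (-(sp (r * t))) z)
  · have e0 : E.U (sp (r * t)) (E.U (-(sp (r * t))) z) = z := E.U_apply_neg _ _
    have e1 : E.U (-(sp (r * t))) z = Ue Q (1 + r * t) GF.one 0 z := by
      rw [← hE, show -(2 * Real.pi * -(sp (r * t))) = 2 * Real.pi * sp (r * t) by ring, exp_sp hr]
    have e2 : ∀ z, EW.U (sp (r * t)) z = Ue Q 1 L 0 z := fun z =>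
      N.bw hG a b _ L EW z ha hb hab hL fun x => by
        rw [hLx, exp_neg_sp hr, exp_sp hr, add_sub_cancel_left]
    rw [e0, e1, e2, neg_smul] at key
    exact key
  · obtain ⟨Y, hY, hYz⟩ := (N.dilC (Real.exp_pos (-(2 * Real.pi * s))) a t).1 X hX
    have : E.sg s X = Y := by
      ext z
      rw [ModData.sg_apply, ← hE s, ← hYz, hE, E.U_apply_neg]
    rw [this]
    exact hY
  · rw [N.modC_eq h ha hb hab ht, hW, neg_smul]

end Vale.Agent.P352.BW.H209

end
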