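import Vale.Agent.P352.BW.Fin1

/-!
# P352 BW (helper209): half-sided modular inclusions of the other sign
-/

set_option linter.all false

noncomputable section

open MeasureTheory Filter Topology
open scoped ComplexConjugate InnerProductSpace BoundedContinuousFunction

namespace Vale.Agent.P352.BW.H209

open Vale.Agent.P132 (ModData expB jconj reflB)
open Vale.Agent.P352.BW

variable {H : Type*} [NormedAddCommGroup H] [InnerProductSpace ℂ H] [CompleteSpace H]
variable {M N : VonNeumannAlgebra H} {ξ : H}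

section cnj

variable (E : ModData M ξ)

lemma jc_jc (a : H →L[ℂ] H) : jconj E.J (jconj E.J a) = a := by
  ext z
  simp [E.J_J]

lemma jc_add (a b : H →L[ℂ] H) : jconj E.J (a + b) = jconj E.J a + jconj E.J b := by
  ext z
  simp

lemma jc_zero : jconj E.J 0 = 0 := by
  ext z
  simp

lemma jc_one : jconj E.J 1 = 1 := by
  ext z
  simp [E.J_J]

lemma jc_smul (c : ℂ) (a : H →L[ℂ] H) : jconj E.J (c • a) = conj c • jconj E.J a := by
  ext z
  simp [map_smulₛₗ]

lemma jc_alg (c : ℂ) : jconj E.J (algebraMap ℂ (H →L[ℂ] H) c) =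
    algebraMap ℂ (H →L[ℂ] H) (conj c) := by
  rw [Algebra.algebraMap_eq_smul_one, Algebra.algebraMap_eq_smul_one, jc_smul, jc_one]

lemma jc_mul_iff (a b : H →L[ℂ] H) : a * jconj E.J b = jconj E.J b * a ↔
    jconj E.J a * b = b * jconj E.J a := by
  constructor
  · intro h
    have := congrArg (jconj E.J) h
    rw [E.jconj_mul, E.jconj_mul, jc_jc] at this
    exact this
  · intro h
    have := congrArg (jconj E.J) h
    rw [E.jconj_mul, E.jconj_mul, jc_jc] at this
    exact this

lemma cent_pre (C : Set (H →L[ℂ] H)) : Set.centralizer {X | jconj E.J X ∈ C} =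
    {X | jconj E.J X ∈ Set.centralizer C} := by
  ext X
  simp only [Set.mem_centralizer_iff, Set.mem_setOf_eq]
  constructor
  · intro h Z hZ
    have h1 := h (jconj E.J Z) (by rw [jc_jc]; exact hZ)
    exact ((jc_mul_iff E X Z).1 h1.symm).symm
  · intro h Y hY
    have h1 := h (jconj E.J Y) hY
    have h2 := (jc_mul_iff E X (jconj E.J Y)).2 h1.symm
    rw [jc_jc] at h2
    exact h2.symm

/-- the image of a von Neumann algebra under the modular conjugation of `E` -/
def cj (N : VonNeumannAlgebra H) : VonNeumannAlgebra H where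
  carrier := {X | jconj E.J X ∈ N}
  mul_mem' := fun {a b} ha hb => by
    show jconj E.J (a * b) ∈ N
    rw [E.jconj_mul]
    exact mul_mem ha hb
  one_mem' := by
    show jconj E.J 1 ∈ N
    rw [jc_one]
    exact one_mem _
  add_mem' := fun {a b} ha hb => by
    show jconj E.J (a + b) ∈ N
    rw [jc_add]
    exact add_mem ha hb
  zero_mem' := by
    show jconj E.J 0 ∈ N
    rw [jc_zero]
    exact zero_mem _
  algebraMap_mem' := fun c => by
    show jconj E.J (algebraMap ℂ (H →L[ℂ] H) c) ∈ N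
    rw [jc_alg]
    exact algebraMap_mem N.toStarSubalgebra _
  star_mem' := fun {a} ha => by
    show jconj E.J (star a) ∈ N
    rw [← E.star_jconj]
    exact star_mem ha
  centralizer_centralizer' := by
    show Set.centralizer (Set.centralizer {X | jconj E.J X ∈ N}) = {X | jconj E.J X ∈ N}
    have h1 := cent_pre E (N : Set (H →L[ℂ] H))
    have h2 := cent_pre E (Set.centralizer (N : Set (H →L[ℂ] H)))
    have h3 : Set.centralizer (Set.centralizer (N : Set (H →L[ℂ] H))) = (N : Set (H →L[ℂ] H)) :=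
      N.centralizer_centralizer'
    rw [h3] at h2
    calc Set.centralizer (Set.centralizer {X | jconj E.J X ∈ (N : Set (H →L[ℂ] H))})
        = Set.centralizer {X | jconj E.J X ∈ Set.centralizer (N : Set (H →L[ℂ] H))} := by
          rw [h1]
      _ = {X | jconj E.J X ∈ (N : Set (H →L[ℂ] H))} := h2

lemma mem_cj {X : H →L[ℂ] H} : X ∈ cj E N ↔ jconj E.J X ∈ N := Iff.rfl

lemma mem_cj_comm {X : H →L[ℂ] H} : X ∈ (cj E N).commutant ↔ jconj E.J X ∈ N.commutant := by
  rw [VonNeumannAlgebra.mem_commutant_iff, VonNeumannAlgebra.mem_commutant_iff]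
  constructor
  · intro h Z hZ
    have h1 := h (jconj E.J Z) (by rw [mem_cj, jc_jc]; exact hZ)
    exact ((jc_mul_iff E X Z).1 h1.symm).symm
  · intro h Y hY
    have h1 := h (jconj E.J Y) hY
    have h2 := (jc_mul_iff E X (jconj E.J Y)).2 h1.symm
    rw [jc_jc] at h2
    exact h2.symm

lemma jc_xi (a : H →L[ℂ] H) : a ξ = E.J (jconj E.J a ξ) := by
  rw [Vale.Agent.P132.jconj_apply, E.J_J, E.J_xi]

lemma J_xi' (a : H →L[ℂ] H) : E.J (a ξ) = jconj E.J a ξ := by
  rw [Vale.Agent.P132.jconj_apply, E.J_xi]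

lemma dense_J {s : Set H} (hs : Dense s) : Dense (E.J '' s) :=
  (E.J.surjective.denseRange).dense_image E.J.continuous hs

/-- the functional calculus of the conjugate algebra -/
def thc (F : ModData N ξ) : (ℝ →ᵇ ℂ) →⋆ₐ[ℂ] (H →L[ℂ] H) where
  toFun G := jconj E.J (F.Th (star G))
  map_one' := by
    show jconj E.J (F.Th (star 1)) = 1
    rw [star_one, map_one, jc_one]
  map_mul' := fun a b => by
    show jconj E.J (F.Th (star (a * b))) = jconj E.J (F.Th (star a)) * jconj E.J (F.Th (star b))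
    rw [star_mul, mul_comm (star b) (star a), map_mul, E.jconj_mul]
  map_zero' := by
    show jconj E.J (F.Th (star 0)) = 0
    rw [star_zero, map_zero, jc_zero]
  map_add' := fun a b => by
    show jconj E.J (F.Th (star (a + b))) = jconj E.J (F.Th (star a)) + jconj E.J (F.Th (star b))
    rw [star_add, map_add, jc_add]
  commutes' := fun c => by
    show jconj E.J (F.Th (star (algebraMap ℂ (ℝ →ᵇ ℂ) c))) = algebraMap ℂ (H →L[ℂ] H) c
    rw [← algebraMap_star_comm, AlgHomClass.commutes, jc_alg]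
    simp
  map_star' := fun a => by
    show jconj E.J (F.Th (star (star a))) = star (jconj E.J (F.Th (star a)))
    rw [E.star_jconj, ← map_star]

lemma thc_apply (F : ModData N ξ) (G : ℝ →ᵇ ℂ) : thc E F G = jconj E.J (F.Th (star G)) := rfl

/-- modular data of the conjugate algebra -/
def mdc (F : ModData N ξ) : ModData (cj E N) ξ where
  norm_xi := F.norm_xi
  cyc := by
    refine (dense_J E F.cyc).mono ?_
    rintro _ ⟨_, ⟨a, ha, rfl⟩, rfl⟩
    exact ⟨jconj E.J a, by rw [mem_cj, jc_jc]; exact ha, (J_xi' E a).symm⟩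
  cyc' := by
    refine (dense_J E F.cyc').mono ?_
    rintro _ ⟨_, ⟨a, ha, rfl⟩, rfl⟩
    exact ⟨jconj E.J a, by rw [mem_cj_comm, jc_jc]; exact ha, (J_xi' E a).symm⟩
  J := (E.J.trans F.J).trans E.J
  J_J := fun ζ => by
    show E.J (F.J (E.J (E.J (F.J (E.J ζ))))) = ζ
    rw [E.J_J, F.J_J, E.J_J]
  J_xi := by
    show E.J (F.J (E.J ξ)) = ξ
    rw [E.J_xi, F.J_xi, E.J_xi]
  Th := thc E F
  Th_nondeg := fun ζ ε hε => by
    obtain ⟨G, h1, h2, h3⟩ := F.Th_nondeg (E.J ζ) ε hε
    refine ⟨star G, ?_, by rw [norm_star]; exact h2, ?_⟩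
    · exact h1.comp_left (g := star) (star_zero _)
    · rw [thc_apply, star_star, Vale.Agent.P132.jconj_apply]
      have : E.J (F.Th G (E.J ζ)) - ζ = E.J (F.Th G (E.J ζ) - E.J ζ) := by
        rw [map_sub, E.J_J]
      rw [this, E.norm_J]
      exact h3
  Th_xi := fun G => by
    rw [thc_apply, Vale.Agent.P132.jconj_apply, E.J_xi, F.Th_xi, map_smulₛₗ, E.J_xi]
    congr 1
    show conj (conj (G 0)) = G 0
    exact Complex.conj_conj _
  J_Th := fun G ζ => by
    show E.J (F.J (E.J (thc E F G ζ))) = thc E F (reflB G) (E.J (F.J (E.J ζ)))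
    rw [thc_apply, thc_apply, Vale.Agent.P132.jconj_apply, Vale.Agent.P132.jconj_apply, E.J_J,
      E.J_J, F.J_Th]
    congr 2
  kms := fun a ha G1 G h => by
    have ha' : jconj E.J a ∈ N := ha
    show thc E F G (E.J (F.J (E.J (star a ξ)))) = thc E F G1 (a ξ)
    rw [thc_apply, thc_apply, Vale.Agent.P132.jconj_apply, Vale.Agent.P132.jconj_apply, E.J_J,
      J_xi' E (star a), ← E.star_jconj, J_xi' E a]
    congr 1
    refine F.kms _ ha' (star G1) (star G) fun x => ?_
    show conj (G1 x) = Real.exp (x / 2) * conj (G x)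
    rw [h x, map_mul, Complex.conj_ofReal]
  J_mem := fun a ha => by
    rw [mem_cj_comm]
    have e : jconj E.J (jconj ((E.J.trans F.J).trans E.J) a) = jconj F.J (jconj E.J a) := by
      ext z
      show E.J (E.J (F.J (E.J (a (E.J (F.J (E.J (E.J z)))))))) = F.J (E.J (a (E.J (F.J z))))
      rw [E.J_J, E.J_J]
    rw [e]
    exact F.J_mem _ ha
  U_mem := fun a ha t => by
    rw [mem_cj, E.jconj_mul, E.jconj_mul, thc_apply, thc_apply, jc_jc, jc_jc, ModData.star_expB,
      ModData.star_expB, neg_neg]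
    have := F.U_mem _ ha (-t)
    rwa [neg_neg] at this

lemma mdc_U (F : ModData N ξ) (t : ℝ) : (mdc E F).U t = jconj E.J (F.U (-t)) := by
  show thc E F (expB t) = _
  rw [thc_apply, ModData.star_expB]
  rfl

end cnj

/-- the unitary group `S` of a half-sided modular inclusion of the other sign -/
structure Hp (DM : ModData M ξ) (DN : ModData N ξ) (S : ℝ → H →L[ℂ] H) : Prop where
  zero : S 0 = 1
  add : ∀ c c', S (c + c') = S c * S c'
  star : ∀ c, star (S c) = S (-c)
  cont : ∀ v, Continuous fun c => S c v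
  xi : ∀ c, S c ξ = ξ
  mod : ∀ t : ℝ, DN.U t = S (Real.exp (2 * Real.pi * t) - 1) * DM.U t
  cov : ∀ s c : ℝ, DM.U s * S c = S (Real.exp (2 * Real.pi * s) * c) * DM.U s

/-- **Half-sided modular inclusions of the other sign** -/
theorem hp_of (DM : ModData M ξ) (DN : ModData N ξ) (hle : ∀ x ∈ N, x ∈ M)
    (hm : ∀ t : ℝ, 0 ≤ t → ∀ x ∈ N, DM.sg t x ∈ N) : ∃ S, Hp DM DN S := by
  have hs : Hsm (mdc DM DM) (mdc DM DN) := by
    refine ⟨fun x hx => hle _ hx, fun t ht x hx => ?_⟩
    rw [mem_cj, ModData.sg, DM.jconj_mul, DM.jconj_mul, mdc_U, mdc_U, jc_jc, jc_jc]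
    exact hm (-t) (by linarith) _ hx
  obtain ⟨S, h⟩ := fS _ _ hs
  refine ⟨fun c => jconj DM.J (S (-c)), ⟨?_, fun c c' => ?_, fun c => ?_, fun v => ?_, fun c => ?_,
    fun t => ?_, fun s c => ?_⟩⟩
  · rw [neg_zero, h.zero, jc_one]
  · rw [neg_add, h.add, DM.jconj_mul]
  · rw [DM.star_jconj, h.star]
  · exact DM.J.continuous.comp ((h.cont (DM.J v)).comp continuous_neg)
  · show DM.J (S (-c) (DM.J ξ)) = ξ
    rw [DM.J_xi, h.xi, DM.J_xi]
  · have h1 := congrArg (jconj DM.J) (h.mod (-t))
    rw [DM.jconj_mul, mdc_U, mdc_U, jc_jc, jc_jc, neg_neg] at h1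
    rw [h1, show -(2 * Real.pi * -t) = 2 * Real.pi * t by ring,
      show 1 - Real.exp (2 * Real.pi * t) = -(Real.exp (2 * Real.pi * t) - 1) by ring]
  · have h1 := congrArg (jconj DM.J) (h.cov (-s) (-c))
    rw [DM.jconj_mul, DM.jconj_mul, mdc_U, jc_jc, neg_neg,
      show -(2 * Real.pi * -s) = 2 * Real.pi * s by ring,
      show Real.exp (2 * Real.pi * s) * -c = -(Real.exp (2 * Real.pi * s) * c) by ring] at h1
    exact h1

end Vale.Agent.P352.BW.H209

end
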